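import Vale.Agent.P011.H228.PolyMap
import Mathlib.FieldTheory.Finite.Extension

/-!
# An anisotropic form of degree `m` in `m ^ 2` variables

`K` is the field of fractions of a domain `O` with a prime element `π` whose residue field is
finite. The form is `∑ i, π ^ i * N (y i)`, `N` being a lift of the norm form of the extension of
degree `m` of the residue field.
-/

namespace Vale.Agent.P011.H760.Even

open Module Vale.Agent.P011.H228

/-- The norm form of a finite field. -/
theorem exists_matrices (κ : Type*) [Field κ] [Finite κ] (m : ℕ) (hm : m ≠ 0) :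
    ∃ B : Fin m → Matrix (Fin m) (Fin m) κ, ∀ u : Fin m → κ,
      (∑ j, u j • B j).det = 0 → u = 0 := by
  obtain ⟨p, hp⟩ := CharP.exists κ
  have hpp : Fact p.Prime := ⟨by
    rcases CharP.char_is_prime_or_zero κ p with h | h
    · exact h
    · subst h
      have := CharP.charP_to_charZero κ
      exact absurd (Finite.of_injective (Nat.cast : ℕ → κ) Nat.cast_injective)
        (not_finite_iff_infinite.mpr inferInstance)⟩
  have : NeZero m := ⟨hm⟩
  let _ : Algebra (ZMod p) κ := ZMod.algebra κ p
  let L := FiniteField.Extension κ p m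
  have hL : finrank κ L = m := FiniteField.finrank_extension κ p m
  have hfd : FiniteDimensional κ L := FiniteDimensional.of_finrank_pos (by
    rw [hL]; exact Nat.pos_of_ne_zero hm)
  let b : Basis (Fin m) κ L := finBasisOfFinrankEq κ L hL
  refine ⟨fun j => Algebra.leftMulMatrix b (b j), fun u hu => ?_⟩
  have h1 : ∑ j, u j • Algebra.leftMulMatrix b (b j)
      = Algebra.leftMulMatrix b (∑ j, u j • b j) := by
    rw [map_sum]
    exact Finset.sum_congr rfl fun j _ => (map_smul _ _ _).symm
  rw [h1] at hu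
  have h2 : ∑ j, u j • b j = 0 := by
    by_contra hne
    have h3 : IsUnit ((Algebra.leftMulMatrix b (∑ j, u j • b j)).det) :=
      (Matrix.isUnit_iff_isUnit_det _).1 ((IsUnit.mk0 _ hne).map (Algebra.leftMulMatrix b))
    rw [hu] at h3
    exact not_isUnit_zero h3
  funext j
  exact Fintype.linearIndependent_iff.1 b.linearIndependent u h2 j

section Form

variable {O κ : Type*} [CommRing O] [Field κ] {m : ℕ}

/-- The form with integral coefficients. -/
def frm (π : O) (A : Fin m → Matrix (Fin m) (Fin m) O) (y : Fin m → Fin m → O) : O :=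
  ∑ i : Fin m, π ^ (i : ℕ) * (∑ j, y i j • A j).det

theorem frm_smul (π c : O) (A : Fin m → Matrix (Fin m) (Fin m) O) (y : Fin m → Fin m → O) :
    frm π A (fun i j => c * y i j) = c ^ m * frm π A y := by
  rw [frm, frm, Finset.mul_sum]
  refine Finset.sum_congr rfl fun i _ => ?_
  have h1 : ∑ j, (c * y i j) • A j = c • ∑ j, y i j • A j := by
    rw [Finset.smul_sum]
    exact Finset.sum_congr rfl fun j _ => mul_smul _ _ _
  rw [h1, Matrix.det_smul, Fintype.card_fin]
  ring

variable {π : O} {r : O →+* κ} {A : Fin m → Matrix (Fin m) (Fin m) O}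

theorem dvd_of_dvd_det (hπ : ∀ x, r x = 0 ↔ π ∣ x)
    (hA : ∀ u : Fin m → κ, (∑ j, u j • (A j).map r).det = 0 → u = 0) {u : Fin m → O}
    (h : π ∣ (∑ j, u j • A j).det) (j : Fin m) : π ∣ u j := by
  rw [← hπ, RingHom.map_det] at h
  have h1 : r.mapMatrix (∑ j, u j • A j) = ∑ j, r (u j) • (A j).map r := by
    rw [map_sum]
    refine Finset.sum_congr rfl fun j _ => ?_
    ext a b
    simp
  rw [h1] at h
  exact (hπ _).1 (congrFun (hA (fun j => r (u j)) h) j)

variable [IsDomain O]

theorem dvd_of_frm (h0 : π ≠ 0) (hπ : ∀ x, r x = 0 ↔ π ∣ x)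
    (hA : ∀ u : Fin m → κ, (∑ j, u j • (A j).map r).det = 0 → u = 0) {y : Fin m → Fin m → O}
    (h : frm π A y = 0) : ∀ (a : ℕ) (i : Fin m), (i : ℕ) = a → ∀ j, π ∣ y i j := by
  intro a
  induction a using Nat.strong_induction_on with
  | _ a ih =>
  intro i hi j
  refine dvd_of_dvd_det hπ hA ?_ j
  have h1 : π ^ (a + 1) ∣ π ^ a * (∑ j, y i j • A j).det := by
    have h2 : π ^ a * (∑ j, y i j • A j).det
        = - ∑ l ∈ Finset.univ.erase i, π ^ (l : ℕ) * (∑ j, y l j • A j).det := by
      rw [eq_neg_iff_add_eq_zero, ← hi, Finset.add_sum_erase _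
        (fun l : Fin m => π ^ (l : ℕ) * (∑ j, y l j • A j).det) (Finset.mem_univ i)]
      exact h
    rw [h2, dvd_neg]
    refine Finset.dvd_sum fun l hl => ?_
    have hli : l ≠ i := Finset.ne_of_mem_erase hl
    rcases lt_or_gt_of_ne (fun h3 : (l : ℕ) = a => hli (Fin.ext (h3.trans hi.symm))) with h4 | h4
    · have h5 := ih l h4 l rfl
      choose z hz using h5
      have h6 : ∑ j, y l j • A j = π • ∑ j, z j • A j := by
        rw [Finset.smul_sum]
        refine Finset.sum_congr rfl fun j _ => ?_
        rw [hz j, mul_smul]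
      rw [h6, Matrix.det_smul, Fintype.card_fin, ← mul_assoc, ← pow_add]
      refine Dvd.dvd.mul_right (pow_dvd_pow π ?_) _
      have := i.2
      omega
    · exact Dvd.dvd.mul_right (pow_dvd_pow π h4) _
  rw [pow_succ] at h1
  exact (mul_dvd_mul_iff_left (pow_ne_zero a h0)).1 h1

theorem pow_dvd_of_frm (h0 : π ≠ 0) (hπ : ∀ x, r x = 0 ↔ π ∣ x)
    (hA : ∀ u : Fin m → κ, (∑ j, u j • (A j).map r).det = 0 → u = 0) (N : ℕ) :
    ∀ {y : Fin m → Fin m → O}, frm π A y = 0 → ∀ i j, π ^ N ∣ y i j := by
  induction N with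
  | zero => exact fun _ i j => by rw [pow_zero]; exact one_dvd _
  | succ N ih =>
    intro y h i j
    have h1 : ∀ i j, ∃ z, y i j = π * z := fun i j => dvd_of_frm h0 hπ hA h _ i rfl j
    choose z hz using h1
    have h2 : y = fun i j => π * z i j := by
      funext i j
      exact hz i j
    rw [h2, frm_smul] at h
    have h3 := ih ((mul_eq_zero.1 h).resolve_left (pow_ne_zero m h0)) i j
    rw [hz, pow_succ, mul_comm]
    exact mul_dvd_mul_left π h3

/-- **An anisotropic form of degree `m` in `m ^ 2` variables.** -/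
theorem exists_form (K : Type*) [Field K] [Algebra O K] [IsFractionRing O K] [Finite κ]
    (hm : m ≠ 0) (h0 : π ≠ 0) (hr : Function.Surjective r)
    (hπ : ∀ x, r x = 0 ↔ π ∣ x) (hk : ∀ x : O, (∀ N : ℕ, π ^ N ∣ x) → x = 0) :
    ∃ φ : (Fin m → Fin m → K) → K, IsPoly K (Fin m → Fin m → K) K m φ ∧
      ∀ y, φ y = 0 → y = 0 := by
  classical
  obtain ⟨B, hB⟩ := exists_matrices κ m hm
  let A : Fin m → Matrix (Fin m) (Fin m) O := fun j => (B j).map (Function.surjInv hr)
  have hA : ∀ u : Fin m → κ, (∑ j, u j • (A j).map r).det = 0 → u = 0 := by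
    intro u hu
    have h1 : ∀ j, (A j).map r = B j := by
      intro j
      ext a b
      exact Function.surjInv_eq hr _
    simp only [h1] at hu
    exact hB u hu
  have hne : Nonempty (Fin m) := ⟨⟨0, Nat.pos_of_ne_zero hm⟩⟩
  let AK : Fin m → Matrix (Fin m) (Fin m) K := fun j => (A j).map (algebraMap O K)
  let L : Fin m → (Fin m → Fin m → K) →ₗ[K] Matrix (Fin m) (Fin m) K := fun i =>
    (Fintype.linearCombination K AK).comp (LinearMap.proj i)
  have hL : ∀ i y, L i y = ∑ j, y i j • AK j := fun i y => by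
    simp [L, Fintype.linearCombination_apply]
  refine ⟨fun y => ∑ i : Fin m, algebraMap O K π ^ (i : ℕ) * (L i y).det, ?_, ?_⟩
  · have h1 : (fun y => ∑ i : Fin m, algebraMap O K π ^ (i : ℕ) * (L i y).det)
        = ∑ i : Fin m, (algebraMap O K π ^ (i : ℕ)) • fun y => (L i y).det := by
      funext y
      simp
    rw [h1]
    refine IsPoly.sum _ fun i _ => IsPoly.smul _ ?_
    have h2 := IsPoly.det (K := K) (A := K) (n := Fin m) (L i)
    rwa [Fintype.card_fin] at h2
  · intro y hy
    obtain ⟨b, hb⟩ := IsLocalization.exist_integer_multiples_of_finite (nonZeroDivisors O)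
      (fun p : Fin m × Fin m => y p.1 p.2)
    choose z hz using hb
    have hz' : ∀ i j, algebraMap O K (z (i, j)) = algebraMap O K b * y i j := by
      intro i j
      rw [hz (i, j), Algebra.smul_def]
    have hb0 : algebraMap O K b ≠ 0 := by
      rw [Ne, IsFractionRing.to_map_eq_zero_iff]
      exact nonZeroDivisors.coe_ne_zero b
    have h1 : frm π A (fun i j => z (i, j)) = 0 := by
      apply IsFractionRing.injective O K
      rw [map_zero, frm, map_sum]
      have h2 : ∀ i : Fin m, algebraMap O K (π ^ (i : ℕ) * (∑ j, z (i, j) • A j).det)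
          = algebraMap O K b ^ m * (algebraMap O K π ^ (i : ℕ) * (L i y).det) := by
        intro i
        have h3 : (algebraMap O K).mapMatrix (∑ j, z (i, j) • A j)
            = algebraMap O K b • L i y := by
          rw [map_sum, hL, Finset.smul_sum]
          refine Finset.sum_congr rfl fun j _ => ?_
          rw [smul_smul, ← hz']
          ext a c
          simp [AK]
        rw [map_mul, map_pow, RingHom.map_det, h3, Matrix.det_smul, Fintype.card_fin]
        ring
      rw [Finset.sum_congr rfl fun i _ => h2 i, ← Finset.mul_sum]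
      exact mul_eq_zero_of_right _ hy
    funext i j
    have h4 : z (i, j) = 0 := hk _ fun N => pow_dvd_of_frm h0 hπ hA N h1 i j
    have h5 := hz' i j
    rw [h4, map_zero] at h5
    exact (mul_eq_zero.1 h5.symm).resolve_left hb0

end Form

end Vale.Agent.P011.H760.Even
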