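import Vale.Agent.P011.H760.Even.Form
import Vale.Agent.P011.H271.Loc

/-!
# The anisotropic form of degree `m` in `m ^ 2` variables over a global function field
-/

namespace Vale.Agent.P011.H760.Even

open Module Polynomial IsDedekindDomain WithZero Vale.Agent.P011.H228 Vale.Agent.P011.H271

/-- A global function field has a place. -/
theorem nonempty_pl (K : Type*) [Field K] [GFF K] : Nonempty (Pl K) := by
  obtain ⟨F, iF, iFin, φ, hφ⟩ := GFF.out (k := K)
  let _ : Algebra (RatFunc F) K := φ.toAlgebra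
  let _ : Algebra F[X] K := (φ.comp (algebraMap F[X] (RatFunc F))).toAlgebra
  have : IsScalarTower F[X] (RatFunc F) K := IsScalarTower.of_algebraMap_eq' rfl
  have : FiniteDimensional (RatFunc F) K := hφ.1
  have : Algebra.IsSeparable (RatFunc F) K := hφ.2
  have hinj : Function.Injective (algebraMap F[X] (OO F K)) := by
    have h1 : Function.Injective (algebraMap F[X] K) := by
      have := instFaith F K
      exact FaithfulSMul.algebraMap_injective F[X] K
    rw [IsScalarTower.algebraMap_eq F[X] (OO F K) K, RingHom.coe_comp] at h1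
    exact Function.Injective.of_comp h1
  have hnf : ¬ IsField (OO F K) := by
    intro h
    have h2 : Algebra.IsIntegral F[X] (OO F K) := inferInstance
    have h3 : IsField F[X] := isField_of_isIntegral_of_isField hinj h
    exact Polynomial.not_isField F h3
  obtain ⟨p, hp, hpp⟩ := Ring.not_isField_iff_exists_prime.1 hnf
  exact ⟨⟨hosV K (⟨p, hpp, hp⟩ : HeightOneSpectrum (OO F K)), hosV_ne_top _⟩⟩

/-- **An anisotropic form of degree `m` in `m ^ 2` variables.** -/
theorem exists_formF (K : Type*) [Field K] [GFF K] {m : ℕ} (hm : m ≠ 0) :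
    ∃ φ : (Fin m → Fin m → K) → K, IsPoly K (Fin m → Fin m → K) K m φ ∧
      ∀ y, φ y = 0 → y = 0 := by
  obtain ⟨V⟩ := nonempty_pl K
  have hfin : Finite (IsLocalRing.ResidueField V.1) := V.resfin
  obtain ⟨p, hp⟩ := V.v_surj (exp (-1 : ℤ))
  have hlt1 : ∀ x : K, V.v x < 1 ↔ V.v x ≤ exp (-1 : ℤ) := by
    intro x
    rcases eq_or_ne (V.v x) 0 with h | h
    · simp [h]
    · rw [← exp_log h, ← exp_zero, exp_lt_exp, exp_le_exp]
      omega
  have hpV : p ∈ V.1 := by
    rw [V.mem_iff, hp]
    exact (exp_lt_exp.2 (by norm_num : (-1 : ℤ) < 0)).le.trans exp_zero.le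
  have hp0 : p ≠ 0 := by
    rintro rfl
    rw [map_zero] at hp
    exact exp_ne_zero hp.symm
  have hdvd : ∀ (N : ℕ) (x : V.1), (⟨p, hpV⟩ : V.1) ^ N ∣ x ↔ V.v (x : K) ≤ exp (-(N : ℤ)) := by
    intro N x
    have hpN : V.v (p ^ N) = exp (-(N : ℤ)) := by
      rw [map_pow, hp, ← exp_nsmul]
      congr 1
      simp
    constructor
    · rintro ⟨y, rfl⟩
      change V.v (p ^ N * (y : K)) ≤ _
      rw [map_mul, hpN]
      exact mul_le_of_le_one_right' ((V.mem_iff _).1 y.2)
    · intro h
      have h1 : (x : K) / p ^ N ∈ V.1 := by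
        rw [V.mem_iff, map_div₀, hpN]
        exact div_le_one_of_le₀ h zero_le
      refine ⟨⟨_, h1⟩, Subtype.ext ?_⟩
      change (x : K) = p ^ N * (x / p ^ N)
      rw [mul_div_cancel₀ _ (pow_ne_zero N hp0)]
  have hmax : ∀ x : V.1, x ∈ IsLocalRing.maximalIdeal V.1 ↔ V.v (x : K) < 1 := by
    intro x
    rw [IsLocalRing.mem_maximalIdeal, mem_nonunits_iff, ← not_le]
    constructor
    · intro h h1
      apply h
      have h2 : (x : K) ≠ 0 := by
        intro h0
        rw [h0, map_zero] at h1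
        exact absurd h1 (not_le.2 zero_lt_one)
      have h3 : (x : K)⁻¹ ∈ V.1 := by
        rw [V.mem_iff, map_inv₀]
        exact inv_le_one_of_one_le₀ h1
      exact IsUnit.of_mul_eq_one ⟨_, h3⟩ (Subtype.ext (mul_inv_cancel₀ h2))
    · rintro h ⟨u, rfl⟩
      apply h
      have h2 : V.v (u : K) * V.v ((u⁻¹ : V.1ˣ) : K) = 1 := by
        rw [← map_mul]
        have h3 : ((u : V.1) : K) * ((u⁻¹ : V.1ˣ) : V.1) = 1 :=
          congrArg Subtype.val (Units.mul_inv u)
        rw [h3, map_one]
      have h4 := (V.mem_iff _).1 ((u⁻¹ : V.1ˣ) : V.1).2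
      rw [← h2]
      exact le_of_le_of_eq (mul_le_mul_right h4 _) (mul_one _)
  refine exists_form (O := V.1) (κ := IsLocalRing.ResidueField V.1) (π := ⟨p, hpV⟩)
    (r := IsLocalRing.residue V.1) K hm ?_ IsLocalRing.residue_surjective ?_ ?_
  · exact fun h => hp0 (congrArg Subtype.val h)
  · intro x
    rw [IsLocalRing.residue_eq_zero_iff, hmax, hlt1]
    have := hdvd 1 x
    rw [pow_one, Nat.cast_one] at this
    exact this.symm
  · intro x hx
    by_contra h0
    have h1 : V.v (x : K) ≠ 0 := by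
      rw [Valuation.ne_zero_iff]
      exact fun h => h0 (Subtype.ext h)
    obtain ⟨l, hl⟩ : ∃ l : ℤ, V.v (x : K) = exp l := ⟨_, (exp_log h1).symm⟩
    have h2 := (hdvd (1 + (-l).toNat) x).1 (hx _)
    rw [hl, exp_le_exp] at h2
    push_cast at h2
    omega

end Vale.Agent.P011.H760.Even
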