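import Vale.Agent.P011.H760.Even.FormF
import Vale.Agent.P011.H428.C2Nrd
import Vale.Agent.P011.H961.SetG
import Vale.Agent.P011.Hey.H63.PlaceRes

/-!
# Three hermitian types at once over a global function field (every characteristic)

`D` is a central division algebra of even degree over `K` with an involution of the second kind
over `k`. For any three elements `g i` of `D` there is `a ≠ 0` such that each of the symmetric
elements `a * g i + star (a * g i)` is zero or has a reduced norm which is a norm from `K`.
-/

namespace Vale.Agent.P011.H760.Even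

open Module Vale.Agent.P011.H228 Vale.Agent.P011.H271 Vale.Agent.P011.H961

variable {k K D : Type} [Field k] [Field K] [StarRing K] [DivisionRing D] [StarRing D]
  [Algebra k K] [Algebra k D] [Algebra K D] [IsScalarTower k K D] {n m : ℕ}

/-- The involution of the quadratic extension, as a linear map. -/
def starL (h : SetG k K D) : K →ₗ[k] K where
  toFun := star
  map_add' := star_add
  map_smul' c x := by
    rw [Algebra.smul_def, star_mul', h.star_algebraMap, RingHom.id_apply, Algebra.smul_def]

/-- The map `a ↦ a g + (a g)^*`. -/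
def trL (h : SetG k K D) (g : D) : D →ₗ[k] D where
  toFun a := a * g + star (a * g)
  map_add' a b := by rw [add_mul, star_add]; abel
  map_smul' c a := by
    rw [RingHom.id_apply, smul_mul_assoc, h.star_smulk, smul_add]

theorem trL_apply (h : SetG k K D) (g a : D) : trL h g a = a * g + star (a * g) := rfl

theorem star_trL (h : SetG k K D) (g a : D) : star (trL h g a) = trL h g a := by
  rw [trL_apply, star_add, star_star, add_comm]

/-- **Three types at once.** -/
theorem exists_types [GFF k] (h : SetG k K D) (hm : m ≠ 0) (hdeg : finrank K D = (2 * m) ^ 2)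
    {Ω : Type*} [Field Ω] [Algebra K Ω] (f : D →ₐ[K] Matrix (Fin (2 * m)) (Fin (2 * m)) Ω)
    {ι : Type*} [Fintype ι] (hι : Fintype.card ι ≤ 3) (g : ι → D) :
    ∃ a : D, a ≠ 0 ∧ ∀ i, a * g i + star (a * g i) = 0 ∨
      ∃ z : K, z ≠ 0 ∧ (f (a * g i + star (a * g i))).det = algebraMap K Ω (z * star z) := by
  classical
  have := h.fin
  have := h.cen
  have := h.finK
  have hGK : GFF K := Hey.H63.gff_of_finite (k := k)
  have hkD : FiniteDimensional k D := FiniteDimensional.trans k K D
  have hn : 0 < 2 * m := by omega
  have hne : Nonempty (Fin (2 * m)) := ⟨⟨0, hn⟩⟩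
  obtain ⟨φ, hφ, hφ0⟩ := exists_formF K hm
  obtain ⟨πK, hπK⟩ := H428.exists_retr K Ω
  obtain ⟨πk, hπk⟩ := H428.exists_retr k K
  let _ : Algebra k Ω := ((algebraMap K Ω).comp (algebraMap k K)).toAlgebra
  have : IsScalarTower k K Ω := IsScalarTower.of_algebraMap_eq fun _ => rfl
  let V := D × (ι → Fin m → Fin m → K)
  have h1 : ∀ i, IsPoly k V K (2 * m) (fun x => πK ((f (trL h (g i) x.1)).det)) := by
    intro i
    have h2 := (IsPoly.det (K := k) (V := V) (A := Ω) (n := Fin (2 * m))
      (((f.toLinearMap.restrictScalars k).comp (trL h (g i))).comp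
        (LinearMap.fst k D (ι → Fin m → Fin m → K)))).comp_left (πK.restrictScalars k)
    rw [Fintype.card_fin] at h2
    exact h2
  have h2 : ∀ i, IsPoly k V K (2 * m) (fun x => φ (x.2 i) * star (φ (x.2 i))) := by
    intro i
    have h3 : IsPoly k V K m (fun x => φ (x.2 i)) :=
      hφ.restrict (((LinearMap.proj i : (ι → Fin m → Fin m → K) →ₗ[k] Fin m → Fin m → K)).comp
        (LinearMap.snd k D (ι → Fin m → Fin m → K)))
    have h4 : IsPoly k V K m (fun x => star (φ (x.2 i))) := h3.comp_left (starL h)
    rw [two_mul]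
    exact h3.mul h4
  obtain ⟨x, hx0, hx⟩ := H428.exists_zero (k := k) (V := V) (fun _ : ι => 2 * m)
    (fun i x => πk (πK ((f (trL h (g i) x.1)).det) - φ (x.2 i) * star (φ (x.2 i))))
    (fun i => ((h1 i).sub (h2 i)).comp_left πk) (by
      rw [finrank_prod, ← finrank_mul_finrank k K D, h.rank, hdeg, finrank_pi_fintype]
      simp only [finrank_pi_fintype, h.rank, Finset.sum_const, Finset.card_univ, Fintype.card_fin,
        smul_eq_mul]
      have h3 : 0 < m ^ 2 := by positivity
      nlinarith)
  have hss : ∀ i, star (trL h (g i) x.1) = trL h (g i) x.1 := fun i => star_trL h _ _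
  choose ν hν using fun i => H268.exists_nrd hn hdeg f (trL h (g i) x.1)
  have hνs : ∀ i, star (ν i) = ν i := fun i =>
    H268.star_nrd hn hdeg h.star_algebraMapD f (hss i) (hν i)
  have hνe : ∀ i, ν i = φ (x.2 i) * star (φ (x.2 i)) := by
    intro i
    have h3 := hx i
    rw [hν i, hπK] at h3
    obtain ⟨c, hc⟩ := (h.fix (ν i - φ (x.2 i) * star (φ (x.2 i)))).1 (by
      rw [star_sub, star_mul', star_star, hνs, mul_comm (star _)])
    rw [← hc, hπk] at h3
    rw [h3, map_zero] at hc
    exact sub_eq_zero.1 hc.symm
  refine ⟨x.1, ?_, fun i => ?_⟩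
  · intro ha
    apply hx0
    refine Prod.ext ha (funext fun i => ?_)
    apply hφ0
    have h3 : ν i = 0 := by
      apply (algebraMap K Ω).injective
      rw [← hν i, ha, map_zero, map_zero, Matrix.det_zero, map_zero]
    rw [hνe i] at h3
    rcases mul_eq_zero.1 h3 with h4 | h4
    · exact h4
    · exact star_eq_zero.1 h4
  · by_cases hz : φ (x.2 i) = 0
    · left
      by_contra hne0
      apply H428.det_ne_zero_of f hne0
      change (f (trL h (g i) x.1)).det = 0
      rw [hν i, hνe i, hz, zero_mul, map_zero]
    · right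
      refine ⟨φ (x.2 i), hz, ?_⟩
      change (f (trL h (g i) x.1)).det = _
      rw [hν i, hνe i]

end Vale.Agent.P011.H760.Even
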